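import Vale.Agent.P165.EX.Trans.Main
import Vale.Agent.P165.EX.Trans.Subspaces

/-!
# The alternatives at one place in plain terms
-/

namespace Vale.Agent.P165.EX

open Matrix
open scoped MatrixGroups

variable {k : Type} [NontriviallyNormedField k] {n : ℕ} {Γ : Type} [Group Γ]

theorem prodT_det_one (P : Moves k n) {L : List ((Fin n → k) × (Fin n → k))} (h : P.Valid L) :
    (prodT L).det = 1 := by
  induction L with
  | nil => simp [prodT]
  | cons e L ih =>
    rw [show prodT (e :: L) = (1 + vecMulVec e.1 e.2) * prodT L by simp [prodT], det_mul,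
      ih fun x hx => h x (List.mem_cons_of_mem _ hx), mul_one, vecMulVec_eq Unit,
      det_one_add_replicateCol_mul_replicateRow, P.orth _ _ (h e List.mem_cons_self), add_zero]

theorem skew_of_alt {J : Matrix (Fin n) (Fin n) k} (halt : ∀ v, v ⬝ᵥ (J *ᵥ v) = 0) : Jᵀ = -J := by
  ext i j
  have hi : ∀ l, J l l = 0 := fun l => by simpa using halt (Pi.single l 1)
  have h := halt (Pi.single i 1 + Pi.single j 1)
  simp only [mulVec_add, dotProduct_add, add_dotProduct, mulVec_single, MulOpposite.op_one,
    one_smul, single_dotProduct, one_mul, hi, col_apply] at h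
  rw [transpose_apply, neg_apply]
  linear_combination h

/-- Density in `SL(n)`, or in the group of an alternating nonsingular form, gives transversality. -/
theorem trans_of_alternatives (hn : 2 ≤ n) (ρ : Γ →* SL(n, k))
    (h : ∃ S : Set (Matrix (Fin n) (Fin n) k),
      ((S = {a | a.det = 1}) ∨ ∃ J : Matrix (Fin n) (Fin n) k,
          J.det ≠ 0 ∧ (∀ v, v ⬝ᵥ (J *ᵥ v) = 0) ∧ S = {a | aᵀ * J * a = J}) ∧
        ∀ f : MvPolynomial (Fin n × Fin n) k,
          (∀ g, MvPolynomial.eval (fun e => (ρ g : Matrix (Fin n) (Fin n) k) e.1 e.2) f = 0) →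
          ∀ a ∈ S, MvPolynomial.eval (fun e => a e.1 e.2) f = 0) : Trans ρ := by
  obtain ⟨S, hS, hd⟩ := h
  rcases hS with rfl | ⟨J, hJ, halt, rfl⟩
  · exact trans_of_moves (slMoves hn) ρ fun f hf L hL => hd f hf _ (prodT_det_one _ hL)
  · exact trans_of_moves (formMoves J hJ halt) ρ fun f hf L hL =>
      hd f hf _ (formMoves_preserves J hJ halt (skew_of_alt halt) hL)

end Vale.Agent.P165.EX
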