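import Vale.Agent.P165.EX.Join.Classes
import Vale.Agent.P165.EX.Multi.Geo

/-!
# Arbitrary kernels: the group and its joint image

With arbitrary kernels only the joint image has finite boxes. The image group carries the
representations with finite boxes, the conditions at the places pass to it, and it is infinite.
-/

namespace Vale.Agent.P165.EX

open Matrix
open scoped MatrixGroups

variable {P : Type} {k : P → Type} [∀ v, NontriviallyNormedField (k v)] {d : P → ℕ}
  {Γ : Type} [Group Γ]

/-- Only finitely many joint images have all entries at all places bounded by a given number. -/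
def ImageBoxes (ρ : ∀ v, Γ →* SL(d v, k v)) : Prop :=
  ∀ R : ℝ, ((fun g v => ρ v g) '' {g : Γ | ∀ v i j,
    ‖(ρ v g : Matrix (Fin (d v)) (Fin (d v)) (k v)) i j‖ ≤ R}).Finite

theorem imageBoxes_of_finiteBoxes {ρ : ∀ v, Γ →* SL(d v, k v)} (h : FiniteBoxes ρ) :
    ImageBoxes ρ :=
  fun R => (h R).image _

/-- The joint image. -/
abbrev jointImage (ρ : ∀ v, Γ →* SL(d v, k v)) : Subgroup (∀ v, SL(d v, k v)) :=
  (MonoidHom.pi ρ).range

/-- The projection of the group onto its joint image. -/
def toImage (ρ : ∀ v, Γ →* SL(d v, k v)) : Γ →* jointImage ρ :=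
  (MonoidHom.pi ρ).rangeRestrict

theorem toImage_surjective (ρ : ∀ v, Γ →* SL(d v, k v)) : Function.Surjective (toImage ρ) :=
  (MonoidHom.pi ρ).rangeRestrict_surjective

/-- The representations of the joint image. -/
def imageRep (ρ : ∀ v, Γ →* SL(d v, k v)) (v : P) : jointImage ρ →* SL(d v, k v) :=
  (Pi.evalMonoidHom (fun v => SL(d v, k v)) v).comp (jointImage ρ).subtype

theorem imageRep_toImage (ρ : ∀ v, Γ →* SL(d v, k v)) (v : P) (g : Γ) :
    imageRep ρ v (toImage ρ g) = ρ v g := rfl

theorem finiteBoxes_image {ρ : ∀ v, Γ →* SL(d v, k v)} (h : ImageBoxes ρ) :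
    FiniteBoxes (imageRep ρ) := by
  intro R
  refine ((h R).preimage (f := Subtype.val) Subtype.val_injective.injOn).subset fun x hx => ?_
  obtain ⟨g, rfl⟩ := toImage_surjective ρ x
  exact ⟨g, hx, rfl⟩

theorem boxFinite_image {ρ : ∀ v, Γ →* SL(d v, k v)} (h : ImageBoxes ρ) :
    Multi.BoxFinite (imageRep ρ) := by
  open scoped Matrix.Norms.Elementwise in
  exact fun R => (finiteBoxes_image h R).subset fun x hx v i j =>
    (norm_entry_le_entrywise_sup_norm (imageRep ρ v x : Matrix (Fin (d v)) (Fin (d v)) (k v))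
      (i := i) (j := j)).trans (hx v)

theorem denseIn_image {ρ : ∀ v, Γ →* SL(d v, k v)} {v : P}
    {S : Set (Matrix (Fin (d v)) (Fin (d v)) (k v))} (h : DenseIn (ρ v) S) :
    DenseIn (imageRep ρ v) S :=
  fun f hf => h f fun g => hf (toImage ρ g)

theorem classicalDense_image {ρ : ∀ v, Γ →* SL(d v, k v)} {v : P}
    (h : ClassicalDense (ρ v)) : ClassicalDense (imageRep ρ v) := by
  obtain ⟨hn, hd | ⟨J, hJ, halt, hd⟩⟩ := h
  · exact ⟨hn, Or.inl (denseIn_image hd)⟩
  · exact ⟨hn, Or.inr ⟨J, hJ, halt, denseIn_image hd⟩⟩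

theorem semisimpleImage_image {ρ : ∀ v, Γ →* SL(d v, k v)} {v : P}
    (h : SemisimpleImage (ρ v)) : SemisimpleImage (imageRep ρ v) := by
  obtain ⟨hn, hirr, hconn⟩ := h
  refine ⟨hn, fun W hW => hirr W fun g => hW (toImage ρ g), fun f₁ f₂ hf => ?_⟩
  · rcases hconn f₁ f₂ fun g => hf (toImage ρ g) with h | h
    · exact Or.inl fun x => by obtain ⟨g, rfl⟩ := toImage_surjective ρ x; exact h g
    · exact Or.inr fun x => by obtain ⟨g, rfl⟩ := toImage_surjective ρ x; exact h g

/-- The target: an arbitrary kernel, finite boxes of the joint image, and at every place classical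
density over any normed field or a semisimple image over a proper one, give a phase. -/
def PhaseKernel : Prop :=
  ∀ (P : Type) [Fintype P] [Nonempty P] (k : P → Type) [∀ v, NontriviallyNormedField (k v)]
    (d : P → ℕ) (Γ : Type) [Group Γ] (ρ : ∀ v, Γ →* SL(d v, k v)), ImageBoxes ρ →
    ((∀ v, ClassicalDense (ρ v)) ∨ (∀ v, ProperSpace (k v) ∧ SemisimpleImage (ρ v))) →
    SG.NonuniquePhase Γ

end Vale.Agent.P165.EX
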