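import Vale.Agent.P165.EX.Join.Conditions
import Vale.Agent.P165.EX.Any.Dense
import Vale.Agent.P165.EX.Semi.Criterion

/-!
# The classes of the hand-in: classical density over any field, semisimple images over proper fields
-/

namespace Vale.Agent.P165.EX

open Matrix Finset
open scoped MatrixGroups

variable {k : Type} [NontriviallyNormedField k] {n : ℕ} {Γ : Type} [Group Γ]

/-- Dense in the special linear group or in that of a nonsingular alternating form. -/
def ClassicalDense (ρ : Γ →* SL(n, k)) : Prop :=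
  2 ≤ n ∧ (DenseIn ρ {a | a.det = 1} ∨
    ∃ J : Matrix (Fin n) (Fin n) k, J.det ≠ 0 ∧ (∀ x, x ⬝ᵥ (J *ᵥ x) = 0) ∧
      DenseIn ρ {a | aᵀ * J * a = J})

/-- Irreducible in degree at least two and with connected closure: if a product of two polynomials
vanishes on the image, so does one of them. -/
def SemisimpleImage (ρ : Γ →* SL(n, k)) : Prop :=
  2 ≤ n ∧
    (∀ W : Submodule k (Fin n → k),
      (∀ g, ∀ w ∈ W, (ρ g : Matrix (Fin n) (Fin n) k) *ᵥ w ∈ W) → W = ⊥ ∨ W = ⊤) ∧
    ∀ f₁ f₂ : MvPolynomial (Fin n × Fin n) k,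
      (∀ g, MvPolynomial.eval (fun e => (ρ g : Matrix (Fin n) (Fin n) k) e.1 e.2) f₁ = 0 ∨
        MvPolynomial.eval (fun e => (ρ g : Matrix (Fin n) (Fin n) k) e.1 e.2) f₂ = 0) →
      (∀ g, MvPolynomial.eval (fun e => (ρ g : Matrix (Fin n) (Fin n) k) e.1 e.2) f₁ = 0) ∨
        ∀ g, MvPolynomial.eval (fun e => (ρ g : Matrix (Fin n) (Fin n) k) e.1 e.2) f₂ = 0

theorem transExt_of_classical {ρ : Γ →* SL(n, k)} (h : ClassicalDense ρ) : Any.TransExt ρ := by
  obtain ⟨hn, hd | ⟨J, hJ, halt, hd⟩⟩ := h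
  · exact Any.transExt_of_alternatives ρ hn ⟨_, Or.inl rfl, hd⟩
  · exact Any.transExt_of_alternatives ρ hn ⟨_, Or.inr ⟨J, hJ, halt, rfl⟩, hd⟩

theorem infinite_of_classical {ρ : Γ →* SL(n, k)} (h : ClassicalDense ρ) : Infinite Γ := by
  refine infinite_of_trans h.1 ρ ?_
  obtain ⟨hn, hd | ⟨J, hJ, halt, hd⟩⟩ := h
  · exact trans_of_alternatives hn ρ ⟨_, Or.inl rfl, hd⟩
  · exact trans_of_alternatives hn ρ ⟨_, Or.inr ⟨J, hJ, halt, rfl⟩, hd⟩

theorem parts_of_semisimpleImage [ProperSpace k] {ρ : Γ →* SL(n, k)} (h : SemisimpleImage ρ) :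
    ∃ S : Semi.Parts ρ, S.Generic :=
  Semi.parts_of_semisimple ρ h.2.1 h.2.2

/-- Such a group is infinite: a finite connected image is trivial, and then it is reducible. -/
theorem infinite_of_semisimpleImage {ρ : Γ →* SL(n, k)} (h : SemisimpleImage ρ) : Infinite Γ := by
  classical
  obtain ⟨hn, hirr, hconn⟩ := h
  refine not_finite_iff_infinite.1 fun hfinite => ?_
  have := Fintype.ofFinite Γ
  have hconst : ∀ (g : Γ) a b, (ρ g : Matrix (Fin n) (Fin n) k) a b =
      (ρ 1 : Matrix (Fin n) (Fin n) k) a b := by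
    intro g a b
    suffices h : ∀ s : Finset k, (∀ g, (ρ g : Matrix (Fin n) (Fin n) k) a b ∈ s) →
        ∃ c, ∀ g, (ρ g : Matrix (Fin n) (Fin n) k) a b = c by
      obtain ⟨c, hc⟩ := h (univ.image fun g => (ρ g : Matrix (Fin n) (Fin n) k) a b)
        fun g => mem_image_of_mem _ (mem_univ g)
      rw [hc g, hc 1]
    intro s
    induction s using Finset.induction_on with
    | empty => exact fun h => absurd (h 1) (notMem_empty _)
    | insert c s hcs ih =>
      intro hs
      rcases hconn (MvPolynomial.X (a, b) - MvPolynomial.C c)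
          (∏ x ∈ s, (MvPolynomial.X (a, b) - MvPolynomial.C x)) (fun g => by
        rcases mem_insert.1 (hs g) with h | h
        · left; simp [h]
        · right; rw [map_prod]; exact prod_eq_zero h (by simp)) with h | h
      · exact ⟨c, fun g => by simpa [sub_eq_zero] using h g⟩
      · refine ih fun g => ?_
        have h1 := h g
        rw [map_prod, prod_eq_zero_iff] at h1
        obtain ⟨x, hx, h2⟩ := h1
        simp only [map_sub, MvPolynomial.eval_X, MvPolynomial.eval_C, sub_eq_zero] at h2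
        rwa [h2]
  set a : Fin n := ⟨0, by omega⟩
  set b : Fin n := ⟨1, by omega⟩
  have hab : a ≠ b := fun h => by simpa [a, b] using congrArg Fin.val h
  have hg : ∀ g, (ρ g : Matrix (Fin n) (Fin n) k) = 1 := fun g => by
    rw [show (ρ g : Matrix (Fin n) (Fin n) k) = (ρ 1 : Matrix (Fin n) (Fin n) k) from
      Matrix.ext (hconst g), map_one, Matrix.SpecialLinearGroup.coe_one]
  rcases hirr (Submodule.span k {(Pi.single a 1 : Fin n → k)})
    (fun g w hw => by rwa [hg g, one_mulVec]) with h | h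
  · have := congrFun (Submodule.span_singleton_eq_bot.1 h) a
    simp at this
  · obtain ⟨c, hc⟩ := Submodule.mem_span_singleton.1
      (h ▸ Submodule.mem_top : (Pi.single b 1 : Fin n → k) ∈ Submodule.span k {Pi.single a 1})
    have := congrFun hc b
    simp [hab.symm] at this

end Vale.Agent.P165.EX
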