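import Vale.Agent.P165.EX.Join.Closure
import Vale.Agent.P165.EX.Red.Main
import Vale.Agent.P165.EX.Red.Discrete

/-!
# The clauses on semisimple closures
-/

namespace Vale.Agent.P165.EX

open Matrix

variable {n : ℕ} {Γ : Type} [Group Γ]

theorem red_of_closure {K : Type} [Field K] {rep : Γ →* Matrix (Fin n) (Fin n) K}
    (h : SemisimpleClosure rep) : Red.SemisimpleClosure rep :=
  ⟨fun W hW => h.1 W hW, h.2.1, fun H hH W hW g => h.2.2 H hH W hW g⟩

/-- Finitely generated groups with semisimple closure over algebraic numbers. -/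
theorem phaseQT_algebraic {K : Type} [Field K] [CharZero K] [IsAlgClosed K]
    (halg : ∀ x : K, IsAlgebraic ℤ x) [Group.FG Γ] (rep : Γ →* Matrix (Fin n) (Fin n) K)
    (hker : {g : Γ | rep g = 1}.Finite) (h : SemisimpleClosure rep) : PhaseQT Γ :=
  Red.phaseQT_semisimple halg rep hker (red_of_closure h)

/-- Complex representations with finite boxes and semisimple closure. -/
theorem phaseQT_complex (rep : Γ →* Matrix (Fin n) (Fin n) ℂ)
    (hfin : ∀ R : ℝ, {g : Γ | ∀ i j, ‖rep g i j‖ ≤ R}.Finite) (h : SemisimpleClosure rep) :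
    PhaseQT Γ :=
  Red.phaseQT_discrete_complex rep (red_of_closure h).1 (red_of_closure h).2.2 h.2.1 hfin

/-- The two classes together. -/
theorem phaseQT_semisimpleRep (h : SemisimpleRep Γ) : PhaseQT Γ := by
  obtain ⟨_, rep, hfin, hc⟩ | ⟨hfg, K, _, _, rep, hc0, hcl, halg, hker, hc⟩ := h
  · exact phaseQT_complex rep hfin hc
  · exact phaseQT_algebraic halg rep hker hc

end Vale.Agent.P165.EX
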