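import Mathlib.LinearAlgebra.Matrix.ToLin
import Mathlib.LinearAlgebra.Determinant
import Mathlib.GroupTheory.Index
import Mathlib.GroupTheory.OrderOfElement
import Mathlib.GroupTheory.Finiteness
import Mathlib.FieldTheory.IsAlgClosed.Basic
import Mathlib.RingTheory.Algebraic.Defs
import Mathlib.Analysis.Complex.Basic

/-!
# The elementary form of a semisimple closure
-/

namespace Vale.Agent.P165.EX

open Matrix

variable {K : Type} [Field K] {n : ℕ} {Γ : Type} [Group Γ]

/-- Every invariant subspace has an invariant complement. -/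
def CompletelyReducible (rep : Γ →* Matrix (Fin n) (Fin n) K) : Prop :=
  ∀ W : Submodule K (Fin n → K), (∀ g, ∀ w ∈ W, rep g *ᵥ w ∈ W) →
    ∃ W' : Submodule K (Fin n → K), IsCompl W W' ∧ ∀ g, ∀ w ∈ W', rep g *ᵥ w ∈ W'

/-- The determinant of an endomorphism. -/
noncomputable def endDet {V : Type} [AddCommGroup V] [Module K V] (f : V →ₗ[K] V) : K :=
  LinearMap.det f

/-- The determinant of a linear map on a subspace that it preserves. -/
noncomputable def subDet {V : Type} [AddCommGroup V] [Module K V] (f : V →ₗ[K] V)
    (W : Submodule K V) (hW : ∀ v ∈ W, f v ∈ W) : K :=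
  endDet (f.restrict hW)

/-- On every subspace stable under a subgroup of finite index the determinants of that subgroup
are roots of unity. -/
def RootDets (rep : Γ →* Matrix (Fin n) (Fin n) K) : Prop :=
  ∀ H : Subgroup Γ, H.FiniteIndex → ∀ (W : Submodule K (Fin n → K))
    (hW : ∀ h ∈ H, ∀ v ∈ W, toLin' (rep h) v ∈ W) (h : H),
      IsOfFinOrder (subDet (toLin' (rep h)) W (hW h h.2))

/-- Completely reducible, with infinite image, and determinants roots of unity. -/
def SemisimpleClosure (rep : Γ →* Matrix (Fin n) (Fin n) K) : Prop :=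
  CompletelyReducible rep ∧ (Set.range rep).Infinite ∧ RootDets rep

/-- A representation with semisimple closure that has finite boxes over the complex numbers, or
finite kernel over an algebraically closed field algebraic over the rationals, the group then being
finitely generated. -/
def SemisimpleRep (Γ : Type) [Group Γ] : Prop :=
  (∃ (n : ℕ) (rep : Γ →* Matrix (Fin n) (Fin n) ℂ),
    (∀ R : ℝ, {g : Γ | ∀ i j, ‖rep g i j‖ ≤ R}.Finite) ∧ SemisimpleClosure rep) ∨
  (Group.FG Γ ∧ ∃ (K : Type) (_ : Field K) (n : ℕ) (rep : Γ →* Matrix (Fin n) (Fin n) K),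
    CharZero K ∧ IsAlgClosed K ∧ (∀ x : K, IsAlgebraic ℤ x) ∧
    {g : Γ | rep g = 1}.Finite ∧ SemisimpleClosure rep)

end Vale.Agent.P165.EX
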