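import Vale.Agent.P165.EX.Join.Alternatives

/-!
# The conditions of the hand-in in plain terms
-/

namespace Vale.Agent.P165.EX

open Matrix
open scoped MatrixGroups

/-- Only finitely many elements have all entries at all places bounded by a given number. -/
def FiniteBoxes {P : Type} {k : P → Type} [∀ v, NontriviallyNormedField (k v)] {d : P → ℕ}
    {Γ : Type} [Group Γ] (ρ : ∀ v, Γ →* SL(d v, k v)) : Prop :=
  ∀ R : ℝ, {g : Γ | ∀ v i j,
    ‖(ρ v g : Matrix (Fin (d v)) (Fin (d v)) (k v)) i j‖ ≤ R}.Finite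

variable {k : Type} [NontriviallyNormedField k] {n : ℕ} {Γ : Type} [Group Γ]

/-- One element makes any given finitely many pairs of subspaces of complementary dimensions
transversal. -/
def Transversal (ρ : Γ →* SL(n, k)) : Prop :=
  ∀ (N : ℕ) (U W : Fin N → Submodule k (Fin n → k)),
    (∀ i, Module.finrank k (U i) + Module.finrank k (W i) = n) →
    ∃ g : Γ, ∀ i, Disjoint (U i)
      ((W i).map (Matrix.mulVecLin (ρ g : Matrix (Fin n) (Fin n) k)))

/-- Every polynomial in the entries vanishing on the image vanishes on `S`. -/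
def DenseIn (ρ : Γ →* SL(n, k)) (S : Set (Matrix (Fin n) (Fin n) k)) : Prop :=
  ∀ f : MvPolynomial (Fin n × Fin n) k,
    (∀ g, MvPolynomial.eval (fun e => (ρ g : Matrix (Fin n) (Fin n) k) e.1 e.2) f = 0) →
      ∀ a ∈ S, MvPolynomial.eval (fun e => a e.1 e.2) f = 0

/-- Transversal, or dense in the special linear group or in that of a nonsingular alternating
form. -/
def PlaceCondition (ρ : Γ →* SL(n, k)) : Prop :=
  2 ≤ n ∧ (Transversal ρ ∨ DenseIn ρ {a | a.det = 1} ∨
    ∃ J : Matrix (Fin n) (Fin n) k, J.det ≠ 0 ∧ (∀ x, x ⬝ᵥ (J *ᵥ x) = 0) ∧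
      DenseIn ρ {a | aᵀ * J * a = J})

theorem trans_of_place {ρ : Γ →* SL(n, k)} (h : PlaceCondition ρ) : Trans ρ := by
  obtain ⟨hn, ht | hd | ⟨J, hJ, halt, hd⟩⟩ := h
  · exact trans_of_transversal ρ ht
  · exact trans_of_alternatives hn ρ ⟨_, Or.inl rfl, hd⟩
  · exact trans_of_alternatives hn ρ ⟨_, Or.inr ⟨J, hJ, halt, rfl⟩, hd⟩

end Vale.Agent.P165.EX
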