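import Mathlib.LinearAlgebra.Matrix.SpecialLinearGroup
import Mathlib.GroupTheory.Index
import Mathlib.GroupTheory.Solvable
import Mathlib.RingTheory.MvPolynomial.Basic

/-!
# The conditions of the clauses for linear images
-/

namespace Vale.Agent.P165.EX

open Matrix
open scoped MatrixGroups

/-- No subgroup of finite index is solvable. -/
def NotVirtuallySolvable (G : Type) [Group G] : Prop :=
  ∀ H : Subgroup G, H.FiniteIndex → ¬ Group.IsSolvable H

/-- Every polynomial in the entries which vanishes on the image vanishes on the special linear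
group. -/
def DenseSL {K : Type} [Field K] {n : ℕ} {Γ : Type} [Group Γ] (ρ : Γ →* SL(n, K)) : Prop :=
  ∀ f : MvPolynomial (Fin n × Fin n) K,
    (∀ g, MvPolynomial.eval (fun e => (ρ g : Matrix (Fin n) (Fin n) K) e.1 e.2) f = 0) →
      ∀ a : SL(n, K),
        MvPolynomial.eval (fun e => (a : Matrix (Fin n) (Fin n) K) e.1 e.2) f = 0

end Vale.Agent.P165.EX
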